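import Vale.Agent.P161.Crit.Assemble
import Vale.Agent.P161.Converse.Factor

/-!
# Hand-in for P161: the exact factor-of-IID threshold of the free Ising measure
-/

namespace Vale.Agent.Results.P161.Threshold

open Vale.Agent.P161

/-- The free Ising measure on a regular tree is a factor of IID exactly up to the reconstruction
threshold. -/
theorem result : ∀ (V : Type) (G : SimpleGraph V) [G.LocallyFinite] (d : ℕ), 3 ≤ d → G.IsTree →
    (∀ v, G.degree v = d) → ∀ β : ℝ, 0 ≤ β →
    (IsFIIDFreeIsing G (Real.tanh β) ↔ Real.tanh β ^ 2 * ((d : ℝ) - 1) ≤ 1) := by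
  intro V G _ d hd hG hdeg β hβ
  classical
  have hd' : (3 : ℝ) ≤ d := by exact_mod_cast hd
  have h0 : 0 ≤ Real.tanh β := by
    rw [Real.tanh_eq_sinh_div_cosh]
    exact div_nonneg (Real.sinh_nonneg_iff.mpr hβ) (Real.cosh_pos β).le
  have h1 : Real.tanh β < 1 := by
    rw [Real.tanh_eq_sinh_div_cosh, div_lt_one (Real.cosh_pos β)]
    exact Real.sinh_lt_cosh β
  refine ⟨fun h => ?_, fun hthr => ?_⟩
  · by_contra hn
    exact Converse.not_isFIID_above hG hd hdeg h0 h1 (not_le.mp hn) h
  · rcases hthr.eq_or_lt with heq | hlt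
    · have := countable_of_isTree hG
      exact Crit.isFIID_threshold (d := d)
        ⟨hG, hdeg, hd, h0, by rw [mul_comm]; exact heq.le⟩ (by rw [mul_comm]; exact heq)
    · exact isFIID_below_threshold hG (by omega) hdeg h0 h1 hlt

end Vale.Agent.Results.P161.Threshold
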